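import Mathlib

/-!
P068: intersection for `(M✶, N✶)` implies intersection for `(M, N)`.
-/

namespace Vale.Agent.P068

open Set

variable {α : Type*}

/-- An element outside the closure of `Z` is spanned in the dual by the remaining elements. -/
theorem mem_dual_closure {M : Matroid α} {Z : Set α} {e : α} (hZ : Z ⊆ M.E) (he : e ∈ M.E)
    (h : e ∉ M.closure Z) : e ∈ M✶.closure (M.E \ insert e Z) := by
  obtain ⟨B0, hB0⟩ := M.exists_isBasis Z hZ
  rw [← hB0.closure_eq_closure] at h
  have hi : M.Indep (insert e B0) :=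
    (hB0.indep.notMem_closure_iff_of_notMem (fun h' => h (M.mem_closure_of_mem h' hB0.indep.subset_ground)) he).1 h
  obtain ⟨B, hB, hBsub⟩ := hi.exists_isBase_superset
  have heB : e ∈ B := hBsub (mem_insert e B0)
  have hK := hB.compl_closure_sdiff_singleton_isCocircuit heB
  have heK : e ∈ M.E \ M.closure (B \ {e}) :=
    ⟨he, hB.indep.notMem_closure_sdiff_of_mem heB⟩
  refine M✶.closure_subset_closure ?_ (hK.isCircuit.mem_closure_sdiff_singleton_of_mem heK)
  rintro x ⟨⟨hxE, hx⟩, hxe⟩
  refine ⟨hxE, fun hxin => hxin.elim hxe fun hxZ => hx ?_⟩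
  have hsub : B0 ⊆ B \ {e} := fun y hy =>
    ⟨hBsub (mem_insert_of_mem e hy), fun hye =>
      h (by rw [← hye]; exact M.mem_closure_of_mem hy hB0.indep.subset_ground)⟩
  exact M.closure_subset_closure hsub (hB0.subset_closure hxZ)

/-- An element spanned in the dual by `W` is not spanned by a set disjoint from `insert e W`. -/
theorem notMem_closure_of_mem_dual_closure {M : Matroid α} {Z W : Set α} {e : α}
    (heZ : e ∉ Z) (heW : e ∉ W) (hd : Disjoint Z W) (h : e ∈ M✶.closure W) :
    e ∉ M.closure Z := by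
  intro h'
  obtain ⟨K, hKs, hK, heK⟩ := Matroid.exists_isCircuit_of_mem_closure h heW
  obtain ⟨C, hCs, hC, heC⟩ := Matroid.exists_isCircuit_of_mem_closure h' heZ
  refine hC.inter_isCocircuit_ne_singleton (e := e) (K := K) hK ?_
  refine Subset.antisymm (fun x hx => ?_) (singleton_subset_iff.2 ⟨heC, heK⟩)
  rcases hCs hx.1 with h1 | h1
  · exact h1
  rcases hKs hx.2 with h2 | h2
  · exact h2
  · exact (disjoint_left.1 hd h1 h2).elim

/-- One matroid's half of the dual transfer: `J` is coindependent, `A = J ∩ X` spans `X` in the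
dual and `Y = E \ X`. Then `Y \ J` spans `Y`, and `X \ J` stays independent over `Y`. -/
theorem half {M : Matroid α} {JM JN X : Set α}
    (hJ : M✶.Indep (JM ∪ JN)) (hA : JM ⊆ X) (hXE : X ⊆ M.E)
    (hX : X ⊆ M✶.closure JM) :
    M.E \ X ⊆ M.closure ((M.E \ X) \ JN) ∧
      ∀ I, M.Indep I → I ⊆ M.E \ X → ∀ A, A ⊆ X \ JM → M.Indep (I ∪ A) := by
  have hJE : JM ∪ JN ⊆ M.E := hJ.subset_ground
  constructor
  · intro e he
    by_cases heJ : e ∈ JN
    swap
    · exact M.mem_closure_of_mem ⟨he, heJ⟩ (sdiff_subset.trans sdiff_subset)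
    by_contra h
    have h1 := mem_dual_closure (sdiff_subset.trans sdiff_subset) he.1 h
    refine hJ.notMem_closure_sdiff_of_mem (e := e) (Or.inr heJ) ?_
    refine (M✶.closure_subset_closure_of_subset_closure ?_) h1
    rintro x ⟨hxE, hx⟩
    simp only [mem_insert_iff, mem_sdiff, not_or, not_and, not_not] at hx
    by_cases hxX : x ∈ X
    · refine M✶.closure_subset_closure ?_ (hX hxX)
      exact fun y hy => ⟨Or.inl hy, fun hye => he.2 (by rw [← hye]; exact hA hy)⟩
    · exact M✶.mem_closure_of_mem ⟨Or.inr (hx.2 ⟨hxE, hxX⟩), hx.1⟩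
        (sdiff_subset.trans hJ.subset_ground)
  · intro I hI hIY A hAX
    have hAE : A ⊆ M.E := hAX.trans (sdiff_subset.trans hXE)
    have key : ∀ e ∈ A, e ∉ M.closure ((I ∪ A) \ {e}) := by
      intro e he
      refine notMem_closure_of_mem_dual_closure (W := JM) (fun h => h.2 rfl) (hAX he).2 ?_
        (hX (hAX he).1)
      rw [disjoint_left]
      rintro x ⟨hx | hx, -⟩ hxJ
      · exact (hIY hx).2 (hA hxJ)
      · exact (hAX hx).2 hxJ
    have hAi : M.Indep A := by
      rw [M.indep_iff_forall_notMem_closure_sdiff hAE]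
      exact fun e he h => key e he (M.closure_subset_closure
        (sdiff_subset_sdiff_left subset_union_right) h)
    rw [hI.union_indep_iff_forall_notMem_closure_right hAi]
    exact fun e he h => key e he.1 (M.closure_subset_closure (Y := (I ∪ A) \ {e}) (union_subset
      (fun x hx => ⟨Or.inl hx, fun hxe => he.2 (by rw [← hxe]; exact hx)⟩)
      (sdiff_subset_sdiff_left subset_union_right)) h)

/-- Intersection for the duals gives intersection for the pair. -/
theorem intersection_of_dual (M N : Matroid α) (hE : M.E = N.E)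
    (h : ∃ JM JN : Set α, Disjoint JM JN ∧ M✶.Indep (JM ∪ JN) ∧ N✶.Indep (JM ∪ JN) ∧
      M✶.closure JM ∪ N✶.closure JN = M.E) :
    ∃ JM JN : Set α, Disjoint JM JN ∧ M.Indep (JM ∪ JN) ∧ N.Indep (JM ∪ JN) ∧
      M.closure JM ∪ N.closure JN = M.E := by
  obtain ⟨JM, JN, hd, hJM, hJN, hcl⟩ := h
  set X : Set α := M✶.closure JM \ JN with hXdef
  have hXE : X ⊆ M.E := sdiff_subset.trans (M✶.closure_subset_ground JM)
  have hJX : JM ⊆ X := fun x hx =>
    ⟨M✶.mem_closure_of_mem hx (subset_union_left.trans hJM.subset_ground),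
      disjoint_left.1 hd hx⟩
  have hJNE : JN ⊆ M.E := subset_union_right.trans hJM.subset_ground
  have hJY : JN ⊆ M.E \ X := fun x hx => ⟨hJNE hx, fun hxX => hxX.2 hx⟩
  have hY : M.E \ X ⊆ N✶.closure JN := by
    rintro x ⟨hxE, hxX⟩
    by_cases hxJ : x ∈ JN
    · exact N✶.mem_closure_of_mem hxJ (subset_union_right.trans hJN.subset_ground)
    · exact ((hcl.symm ▸ hxE : x ∈ M✶.closure JM ∪ N✶.closure JN)).resolve_left
        fun h' => hxX ⟨h', hxJ⟩
  obtain ⟨hMspan, hMind⟩ := half hJM hJX hXE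
    sdiff_subset
  obtain ⟨hNspan, hNind⟩ := half (M := N) (JM := JN) (JN := JM) (X := M.E \ X)
    (union_comm JM JN ▸ hJN) hJY (hE ▸ sdiff_subset) hY
  rw [← hE, sdiff_sdiff_cancel_left hXE] at hNspan hNind
  obtain ⟨IY, hIY⟩ := M.exists_isBasis ((M.E \ X) \ JN) (sdiff_subset.trans sdiff_subset)
  obtain ⟨IX, hIX⟩ := N.exists_isBasis (X \ JM) (sdiff_subset.trans (hE ▸ hXE))
  refine ⟨IY, IX, ?_, hMind IY hIY.indep (hIY.subset.trans sdiff_subset) IX hIX.subset, ?_, ?_⟩
  · exact disjoint_left.2 fun x hx hx' => (hIY.subset hx).1.2 (hIX.subset hx').1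
  · rw [union_comm]
    exact hNind IX hIX.indep (hIX.subset.trans sdiff_subset) IY hIY.subset
  · refine subset_antisymm (union_subset (M.closure_subset_ground _)
      (hE ▸ N.closure_subset_ground _)) fun x hx => ?_
    by_cases hxX : x ∈ X
    · right; rw [hIX.closure_eq_closure]; exact hNspan hxX
    · left; rw [hIY.closure_eq_closure]; exact hMspan ⟨hx, hxX⟩

end Vale.Agent.P068
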