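import Mathlib

/-!
P068: matroid intersection for pairs whose common independent sets have bounded size.
-/

namespace Vale.Agent.P068

open Set

variable {α : Type*}

/-- Rank of a finite set, as a natural number. -/
noncomputable def fr (M : Matroid α) (X : Set α) : ℕ := (M.eRk X).toNat

theorem eRk_ne_top (M : Matroid α) {X : Set α} (hX : X.Finite) : M.eRk X ≠ ⊤ :=
  Matroid.eRk_ne_top_iff.2 (M.isRkFinite_of_finite hX)

theorem fr_mono (M : Matroid α) {X Y : Set α} (hY : Y.Finite) (h : X ⊆ Y) : fr M X ≤ fr M Y :=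
  ENat.toNat_le_toNat (M.eRk_mono h) (eRk_ne_top M hY)

theorem fr_submod (M : Matroid α) {X Y : Set α} (hX : X.Finite) (hY : Y.Finite) :
    fr M (X ∩ Y) + fr M (X ∪ Y) ≤ fr M X + fr M Y := by
  have h := M.eRk_inter_add_eRk_union_le X Y
  unfold fr
  rw [← ENat.toNat_add (eRk_ne_top M (hX.inter_of_left Y)) (eRk_ne_top M (hX.union hY)),
    ← ENat.toNat_add (eRk_ne_top M hX) (eRk_ne_top M hY)]
  exact ENat.toNat_le_toNat h (WithTop.add_ne_top.2 ⟨eRk_ne_top M hX, eRk_ne_top M hY⟩)

theorem fr_indep {M : Matroid α} {I : Set α} (hI : M.Indep I) : fr M I = I.ncard := by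
  rw [fr, hI.eRk_eq_encard]; rfl

theorem fr_insert_dep {M : Matroid α} {C X : Set α} {e : α} (hC : M.Indep C) (heE : e ∈ M.E)
    (he : ¬ M.Indep (insert e C)) (hCX : C ⊆ X) : fr M (insert e X) = fr M X := by
  have hcl : e ∈ M.closure C := hC.mem_closure_iff'.2 ⟨heE, fun h => absurd h he⟩
  have hcl' : M.closure (insert e X) = M.closure X :=
    Matroid.closure_insert_eq_of_mem_closure (M.closure_subset_closure hCX hcl)
  rw [fr, ← M.eRk_closure_eq, hcl', M.eRk_closure_eq, fr]

/-- The finite intersection theorem, relative to a common independent set `C`. -/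
theorem finite_minmax (M N : Matroid α) {F : Set α} (hF : F.Finite) :
    ∀ (C : Set α) (k : ℕ), C.Finite → F ⊆ M.E → F ⊆ N.E → Disjoint F C → M.Indep C → N.Indep C →
      (∀ J ⊆ F, M.Indep (C ∪ J) → N.Indep (C ∪ J) → J.ncard ≤ k) →
      ∃ U ⊆ F, fr M (U ∪ C) + fr N ((F \ U) ∪ C) ≤ k + 2 * C.ncard := by
  induction F, hF using Set.Finite.induction_on with
  | empty =>
    intro C k hC _ _ _ hMC hNC _
    refine ⟨∅, subset_rfl, ?_⟩
    simp only [empty_sdiff, empty_union, fr_indep hMC, fr_indep hNC]
    omega
  | @insert e F heF hF ih =>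
    intro C k hC hFM hFN hdisj hMC hNC hbound
    have heC : e ∉ C := fun h => Set.disjoint_left.1 hdisj (mem_insert e F) h
    have hdF : Disjoint F C := hdisj.mono_left (subset_insert e F)
    have hFM' : F ⊆ M.E := (subset_insert e F).trans hFM
    have hFN' : F ⊆ N.E := (subset_insert e F).trans hFN
    obtain ⟨U1, hU1, h1⟩ := ih C k hC hFM' hFN' hdF hMC hNC
      fun J hJ => hbound J (hJ.trans (subset_insert e F))
    have hU1f : U1.Finite := hF.subset hU1
    by_cases hM : M.Indep (insert e C)
    · by_cases hN : N.Indep (insert e C)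
      · have hk : 1 ≤ k := by
          have h := hbound {e} (by simp) (by rwa [union_singleton]) (by rwa [union_singleton])
          simpa using h
        obtain ⟨U2, hU2, h2⟩ := ih (insert e C) (k - 1) (hC.insert e) hFM' hFN'
          (Set.disjoint_insert_right.2 ⟨heF, hdF⟩) hM hN fun J hJ hJM hJN => by
            have h := hbound (insert e J) (insert_subset_insert hJ)
              (by rwa [union_insert, ← insert_union]) (by rwa [union_insert, ← insert_union])
            rw [ncard_insert_of_notMem (fun h => heF (hJ h)) (hF.subset hJ)] at h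
            omega
        have hU2f : U2.Finite := hF.subset hU2
        rw [ncard_insert_of_notMem heC hC] at h2
        have hMs := fr_submod M (hU1f.union hC) (hU2f.union (hC.insert e))
        have hNs := fr_submod N ((hF.sdiff (t := U1)).union hC)
          ((hF.sdiff (t := U2)).union (hC.insert e))
        have e1 : fr M (insert e (U1 ∪ U2) ∪ C) ≤ fr M ((U1 ∪ C) ∪ (U2 ∪ insert e C)) :=
          fr_mono M ((hU1f.union hC).union (hU2f.union (hC.insert e))) (by
            intro x hx; simp only [mem_union, mem_insert_iff] at hx ⊢; tauto)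
        have e2 : fr M ((U1 ∩ U2) ∪ C) ≤ fr M ((U1 ∪ C) ∩ (U2 ∪ insert e C)) :=
          fr_mono M ((hU1f.union hC).inter_of_left _) (by
            intro x hx; simp only [mem_union, mem_inter_iff, mem_insert_iff] at hx ⊢; tauto)
        have e3 : fr N ((insert e F \ (U1 ∩ U2)) ∪ C) ≤
            fr N (((F \ U1) ∪ C) ∪ ((F \ U2) ∪ insert e C)) :=
          fr_mono N (((hF.sdiff).union hC).union ((hF.sdiff).union (hC.insert e))) (by
            intro x hx; simp only [mem_union, mem_inter_iff, mem_sdiff, mem_insert_iff] at hx ⊢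
            tauto)
        have e4 : fr N ((insert e F \ insert e (U1 ∪ U2)) ∪ C) ≤
            fr N (((F \ U1) ∪ C) ∩ ((F \ U2) ∪ insert e C)) :=
          fr_mono N (((hF.sdiff).union hC).inter_of_left _) (by
            intro x hx; simp only [mem_union, mem_inter_iff, mem_sdiff, mem_insert_iff] at hx ⊢
            tauto)
        by_contra hcon
        push Not at hcon
        have c1 := hcon (insert e (U1 ∪ U2)) (insert_subset_insert (union_subset hU1 hU2))
        have c2 := hcon (U1 ∩ U2) (inter_subset_left.trans (hU1.trans (subset_insert e F)))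
        omega
      · refine ⟨U1, hU1.trans (subset_insert e F), ?_⟩
        have hs : (insert e F \ U1) ∪ C = insert e ((F \ U1) ∪ C) := by
          rw [insert_sdiff_of_notMem _ (fun h => heF (hU1 h)), insert_union]
        rw [hs, fr_insert_dep hNC (hFN (mem_insert e F)) hN subset_union_right]
        exact h1
    · refine ⟨insert e U1, insert_subset_insert hU1, ?_⟩
      have hs : insert e F \ insert e U1 = F \ U1 := by
        ext x; simp only [mem_sdiff, mem_insert_iff]
        constructor
        · tauto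
        · exact fun h => ⟨Or.inr h.1, fun h' => h'.elim (fun h'' => heF (h'' ▸ h.1)) h.2⟩
      rw [hs, insert_union, fr_insert_dep hMC (hFM (mem_insert e F)) hM subset_union_right]
      exact h1

/-- Intersection for a pair whose common independent sets have bounded size. -/
theorem intersection_of_bounded (M N : Matroid α) (hE : M.E = N.E) (k : ℕ)
    (hb : ∀ I, M.Indep I → N.Indep I → I.Finite ∧ I.ncard ≤ k) :
    ∃ JM JN : Set α, Disjoint JM JN ∧ M.Indep (JM ∪ JN) ∧ N.Indep (JM ∪ JN) ∧
      M.closure JM ∪ N.closure JN = M.E := by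
  classical
  let P : ℕ → Prop := fun n => ∃ I, M.Indep I ∧ N.Indep I ∧ I.ncard = n
  have hP0 : P 0 := ⟨∅, M.empty_indep, N.empty_indep, ncard_empty α⟩
  obtain ⟨J, hJM, hJN, hJ⟩ : P (Nat.findGreatest P k) := Nat.findGreatest_spec (Nat.zero_le k) hP0
  have hJf : J.Finite := (hb J hJM hJN).1
  have hmax : ∀ I, M.Indep I → N.Indep I → I.ncard ≤ J.ncard := fun I hM hN =>
    hJ ▸ Nat.le_findGreatest (hb I hM hN).2 ⟨I, hM, hN, rfl⟩
  have hfin : ∀ F : Finset α, ∃ U : Set α,
      U ⊆ (F : Set α) ∩ M.E ∧ fr M U + fr N (((F : Set α) ∩ M.E) \ U) ≤ J.ncard := by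
    intro F
    obtain ⟨U, hU, h⟩ := finite_minmax M N (F := (F : Set α) ∩ M.E)
      (F.finite_toSet.inter_of_left _) ∅ J.ncard finite_empty inter_subset_right
      (hE ▸ inter_subset_right) (disjoint_empty _) M.empty_indep N.empty_indep
      (fun I _ h1 h2 => by rw [empty_union] at h1 h2; exact hmax I h1 h2)
    exact ⟨U, hU, by simpa using h⟩
  choose V hVsub hV using hfin
  let u : Ultrafilter (Finset α) := Ultrafilter.of Filter.atTop
  have hu : (u : Filter (Finset α)) ≤ Filter.atTop := Ultrafilter.of_le _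
  let U : Set α := {x | ∀ᶠ F in (u : Filter (Finset α)), x ∈ V F}
  have hJE : J ⊆ M.E := hJM.subset_ground
  have key : ∀ x ∈ M.E, fr M ((insert x J) ∩ U) + fr N ((insert x J) \ U) ≤ J.ncard := by
    intro x hx
    have hins : (insert x J).Finite := hJf.insert x
    have h1 : ∀ᶠ F in (u : Filter (Finset α)), hins.toFinset ⊆ F :=
      hu (Filter.eventually_ge_atTop hins.toFinset)
    have h2 : ∀ᶠ F in (u : Filter (Finset α)), ∀ y ∈ insert x J, (y ∈ V F ↔ y ∈ U) := by
      rw [Filter.eventually_all_finite hins]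
      intro y _
      by_cases hy : y ∈ U
      · exact (show ∀ᶠ F in (u : Filter (Finset α)), y ∈ V F from hy).mono fun F h => iff_of_true h hy
      · exact (Ultrafilter.eventually_not.2 hy).mono fun F h => iff_of_false h hy
    obtain ⟨F, hF1, hF2⟩ := (h1.and h2).exists
    refine le_trans (Nat.add_le_add ?_ ?_) (hV F)
    · exact fr_mono M ((F.finite_toSet.inter_of_left _).subset (hVsub F))
        fun y hy => (hF2 y hy.1).2 hy.2
    · refine fr_mono N ((F.finite_toSet.inter_of_left _).sdiff) fun y hy => ⟨⟨?_, ?_⟩, ?_⟩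
      · exact hF1 (hins.mem_toFinset.2 hy.1)
      · exact hy.1.elim (fun h => h ▸ hx) (fun h => hJE h)
      · exact fun h => hy.2 ((hF2 y hy.1).1 h)
  refine ⟨J ∩ U, J \ U, disjoint_left.2 fun y h h' => h'.2 h.2, by rwa [inter_union_sdiff],
    by rwa [inter_union_sdiff], ?_⟩
  refine subset_antisymm (union_subset (M.closure_subset_ground _)
    (hE ▸ N.closure_subset_ground _)) fun x hx => ?_
  have hk := key x hx
  have hsplit : (J ∩ U).ncard + (J \ U).ncard = J.ncard := ncard_inter_add_ncard_sdiff_eq_ncard J U hJf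
  have hMi := hJM.subset (inter_subset_left (t := U))
  have hNi := hJN.subset (sdiff_subset (t := U))
  by_cases hxU : x ∈ U
  · left
    rw [hMi.mem_closure_iff']
    refine ⟨hx, fun hind => ?_⟩
    by_contra hxJ
    rw [insert_inter_of_mem hxU, insert_sdiff_of_mem _ hxU, fr_indep hind, fr_indep hNi,
      ncard_insert_of_notMem hxJ (hJf.inter_of_left U)] at hk
    omega
  · right
    rw [hNi.mem_closure_iff']
    refine ⟨hE ▸ hx, fun hind => ?_⟩
    by_contra hxJ
    rw [insert_inter_of_notMem hxU, insert_sdiff_of_notMem _ hxU, fr_indep hMi, fr_indep hind,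
      ncard_insert_of_notMem hxJ hJf.sdiff] at hk
    omega

end Vale.Agent.P068
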